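import Vale.Agent.P216RG.Rig
import Vale.Agent.P216CP.HR

/-!
# P216RG/Mid: the rigidity lemma, unconditional and metric forms
-/

open scoped Manifold ContDiff Topology ENNReal
open Set Filter
open Vale.Agent.P216R Vale.Agent.P216CP

namespace Vale.Agent.P216RG

variable {E : Type} [NormedAddCommGroup E] [NormedSpace ℝ E] [FiniteDimensional ℝ E] [Nontrivial E]
  {M : Type} [TopologicalSpace M] [ChartedSpace E M] [IsManifold 𝓘(ℝ, E) ∞ M]
  {g : Ten E M} {U V : Set M} {lam : ℝ} {u : M → ℝ}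

theorem rig' (hg : Met g U) (hH : Hs U) (hV : IsOpen V) (hVU : V ⊆ U)
    (hu : ContinuousOn u V) (h : ∀ σ L, MinGeo g U σ L → MapsTo σ (Icc 0 L) V →
      2 * u (σ (L / 2)) = u (σ 0) + u (σ L) - lam * L ^ 2 / 4) :
    ContMDiffOn 𝓘(ℝ, E) 𝓘(ℝ, ℝ) ∞ u V ∧ ∀ x ∈ V, hess g u x = lam • g x :=
  rig (hr E) hg hH hV hVU hu h

/-- the rigidity lemma from the identity for metric midpoints -/
theorem rig_mid (hg : Met g U) (hH : Hs U) (hV : IsOpen V) (hVU : V ⊆ U)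
    (hu : ContinuousOn u V) (h : ∀ y ∈ V, ∀ z ∈ V, ∀ m ∈ V, ed g U y z ≠ ⊤ →
      dd g U y m = dd g U y z / 2 → dd g U m z = dd g U y z / 2 →
      2 * u m = u y + u z - lam * dd g U y z ^ 2 / 4) :
    ContMDiffOn 𝓘(ℝ, E) 𝓘(ℝ, ℝ) ∞ u V ∧ ∀ x ∈ V, hess g u x = lam • g x :=
  rig' hg hH hV hVU hu fun σ L h1 h2 => by
    have h0 := h1.nonneg
    have a : (0 : ℝ) ∈ Icc 0 L := ⟨le_rfl, h0⟩
    have b : L ∈ Icc 0 L := ⟨h0, le_rfl⟩
    have c : L / 2 ∈ Icc 0 L := ⟨by linarith, by linarith⟩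
    have e : dd g U (σ 0) (σ L) = L := dd_eq_of (minGeo_ed h1) h0
    have := h _ (h2 a) _ (h2 b) _ (h2 c) (minGeo_ed h1 ▸ ENNReal.ofReal_ne_top)
      (by rw [e, minGeo_dd h1 a c, zero_sub, abs_neg, abs_of_nonneg c.1])
      (by rw [e, minGeo_dd h1 c b, abs_sub_comm, sub_half, abs_of_nonneg c.1])
    rwa [e] at this

end Vale.Agent.P216RG
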