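import Vale.Agent.P216RG.Core
import Vale.Agent.P216CP.NB
import Vale.Agent.P216CP.Stm
import Vale.Agent.P216B.Top
import Vale.Agent.P216R.Flow

/-!
# P216RG/Rig: the rigidity lemma on manifolds
-/

open scoped Manifold ContDiff Topology ENNReal
open Set Filter
open Vale.Agent.P216R Vale.Agent.P216CP
open Vale.Agent.P219.RG (cc chris)

noncomputable section

set_option maxSynthPendingDepth 3

namespace Vale.Agent.P216RG

variable {E : Type} [NormedAddCommGroup E] [NormedSpace ℝ E] [FiniteDimensional ℝ E]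
  {M : Type} [TopologicalSpace M] [ChartedSpace E M] [IsManifold 𝓘(ℝ, E) ∞ M]
  {g : Ten E M} {U V : Set M} {γ : ℝ → M} {s : Set ℝ} {t lam : ℝ} {x : M} {u : M → ℝ}

omit [FiniteDimensional ℝ E] [IsManifold 𝓘(ℝ, E) ∞ M] in
/-- the first two derivatives of a function along a geodesic -/
theorem hess_geo (h : IsGeo g U γ s) (hs : IsOpen s) (ht : t ∈ s)
    (hu : ContDiffAt ℝ 2 (rd E u (γ t)) (pt E (γ t))) :
    HasDerivAt (u ∘ γ) (fderiv ℝ (rd E u (γ t)) (pt E (γ t)) (dv γ t)) t ∧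
      (∀ᶠ τ in 𝓝 t, DifferentiableAt ℝ (u ∘ γ) τ) ∧
      HasDerivAt (deriv (u ∘ γ)) (hess g u (γ t) (dv γ t) (dv γ t)) t := by
  have ha := mem_chart_source E (γ t)
  obtain ⟨e1, e2, e3⟩ := h.eqn (γ t) t ht ha
  have h1 : ∀ᶠ τ in 𝓝 t, γ τ ∈ (chartAt E (γ t)).source :=
    (h.contAt hs ht).eventually ((chartAt E (γ t)).open_source.mem_nhds ha)
  have h2 : ∀ᶠ τ in 𝓝 t, HasDerivAt (u ∘ γ)
      (fderiv ℝ (rd E u (γ t)) (cc γ (γ t) τ) (deriv (cc γ (γ t)) τ)) τ := by
    filter_upwards [h1.eventually_nhds, hs.mem_nhds ht,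
      e1.continuousAt.eventually (hu.eventually (by simp))] with τ a1 a2 a3
    refine ((a3.differentiableAt (by norm_num)).hasFDerivAt.comp_hasDerivAt τ
      (h.hasDerivAt_cc a2 a1.self_of_nhds)).congr_of_eventuallyEq (a1.mono fun σ hσ => ?_)
    simp only [Function.comp_apply, rd, cc, (chartAt E (γ t)).left_inv hσ]
  refine ⟨h2.self_of_nhds, h2.mono fun τ hτ => hτ.differentiableAt, ?_⟩
  have d := (((hu.fderiv_right (m := 1) (by norm_num)).differentiableAt
    one_ne_zero).hasFDerivAt.comp_hasDerivAt t e1.hasDerivAt).clm_apply e2.hasDerivAt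
  refine (d.congr_of_eventuallyEq (h2.mono fun τ hτ => hτ.deriv)).congr_deriv ?_
  rw [e3, hess, hessG_apply, map_neg]
  rfl

theorem hess_symm (hg : Met g U) (hx : x ∈ U) (hu : ContDiffAt ℝ 2 (rd E u x) (pt E x)) (v w : E) :
    hess g u x v w = hess g u x w v := by
  rw [hess, hessG_apply, hessG_apply, (met_on hg x).chris_symm (pt_mem_dom hx),
    (hu.isSymmSndFDerivAt (by simp)).eq]

/-- the exponential map in the chart at `x`, with variable base point -/
def ex (g : Ten E M) (U : Set M) (x : M) (p : E × E) : E := chartAt E x (geo g U x p 1)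

theorem geo_const (hg : Met g U) (hH : Hs U) {m : E} (hm : m ∈ dom E x U) (t : ℝ) :
    t ∈ Tm g U x (m, 0) ∧ geo g U x (m, 0) t = (chartAt E x).symm m := by
  have := geo_smul (y := (m, 0)) (t := t) (k := 0) hg hH (by
    rw [zero_mul]; exact zero_mem_Tm hg hm)
  rwa [zero_smul, zero_mul, geo_zero hg hH] at this

theorem ex_facts (hg : Met g U) (hH : Hs U) (hx : x ∈ U) :
    ContDiffAt ℝ ∞ (ex g U x) (pt E x, 0) ∧ ex g U x (pt E x, 0) = pt E x ∧
      ∀ p, fderiv ℝ (ex g U x) (pt E x, 0) p = p.1 + p.2 := by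
  obtain ⟨h1, h2⟩ := geo_const hg hH (pt_mem_dom hx) 1
  rw [symm_pt] at h2
  have h3 : ContDiffAt ℝ ∞ (ex g U x) (pt E x, 0) :=
    (((good_of_mem hg hH h1).smooth x (h2.symm ▸ mem_chart_source E x)).comp (pt E x, (0 : E))
      (f := fun p : E × E => ((1 : ℝ), p)) (contDiffAt_const.prodMk contDiffAt_id)).fst
  refine ⟨h3, congrArg (chartAt E x) h2, fun p => ?_⟩
  have d := (h3.differentiableAt (by simp)).hasFDerivAt
  have d1 := (d.comp (pt E x) (f := fun e => (e, (0 : E))) (hasFDerivAt_prodMk_left _ _)).unique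
    ((hasFDerivAt_id _).congr_of_eventuallyEq (by
      filter_upwards [(isOpen_dom x hg.isOpen).mem_nhds (pt_mem_dom hx)] with m hm
      simp only [Function.comp_apply, ex, (geo_const hg hH hm 1).2, id,
        (chartAt E x).right_inv hm.1]))
  have d2 := md_expo_zero hg hH hx p.2
  rw [md_expo hg hH (zero_mem_Dom hg hH hx), expo_zero hg hH hx] at d2
  have d3 := (d.comp 0 (hasFDerivAt_prodMk_right (pt E x) 0)).fderiv
  have e : p = (p.1, 0) + (0, p.2) := by simp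
  conv_lhs => rw [e, map_add]
  exact congrArg₂ (· + ·) (congrArg (fun L : E →L[ℝ] E => L p.1) d1)
    ((congrArg (fun L : E →L[ℝ] E => L p.2) d3).symm.trans d2)

theorem ev_geo (hg : Met g U) (hH : Hs U) (hx : x ∈ U) {W : Set M} (hW : W ∈ 𝓝 x) :
    ∀ᶠ p : E × E in 𝓝 (pt E x, 0), p.1 ∈ dom E x U ∧ ∀ t ∈ Icc (-1 : ℝ) 1, t ∈ Tm g U x p ∧
      geo g U x p t ∈ W ∧ geo g U x (p.1, t • p.2) 1 = geo g U x p t := by
  obtain ⟨h1, h2⟩ := geo_const hg hH (pt_mem_dom hx) 1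
  rw [symm_pt] at h2
  have h3 := good_of_mem hg hH h1
  have c := (Continuous.prodMk_right (1 : ℝ)).tendsto (pt E x, (0 : E))
  obtain ⟨δ, hδ, H⟩ := Metric.eventually_nhds_iff.1 (c.eventually (h3.ev.and
    (h3.cont.eventually_mem (by rwa [h2]))))
  filter_upwards [Metric.ball_mem_nhds _ hδ, continuous_fst.continuousAt.eventually
    ((isOpen_dom x hg.isOpen).mem_nhds (pt_mem_dom hx))] with p hp hp'
  refine ⟨hp', fun t ht => ?_⟩
  obtain ⟨a1, a2⟩ := H (y := (p.1, t • p.2)) (lt_of_le_of_lt (max_le_max le_rfl (by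
    rw [dist_zero_right, dist_zero_right, norm_smul]
    exact mul_le_of_le_one_left (norm_nonneg _) (abs_le.2 ht))) hp)
  have a3 := (mem_Tm_smul hg hH).1 a1
  have a4 := (geo_smul hg hH a3).2
  rw [mul_one] at a3 a4
  exact ⟨a3, a4 ▸ a2, a4⟩

theorem sp_geo (hg : Met g U) (hH : Hs U) {p : E × E} (ht : t ∈ Tm g U x p) :
    sp g (geo g U x p) t = co g x p.1 p.2 p.2 := by
  have h := sol_geo hg hH (mem_dom_of_Tm ht)
  rw [h.geo.sp_const hg h.isOpen h.ord.isPreconnected ht h.zero, sp_chart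
    (h.geo.contAt h.isOpen h.zero) h.src (h.geo.eqn _ _ h.zero h.src).1]
  have e := h.init
  generalize geo g U x p = γ at e ⊢
  rw [← e, stt]

/-- the rigidity lemma at a point, from the midpoint identity along all short geodesics -/
theorem rig_loc (hg : Met g U) (hH : Hs U) (hx : x ∈ U) (hu : ∀ᶠ y in 𝓝 x, ContinuousAt u y)
    {W : Set M} (hW : W ∈ 𝓝 x) {δ : ℝ} (hδ : 0 < δ)
    (h : ∀ γ s, IsOpen s → s.OrdConnected → IsGeo g U γ s → Icc 0 1 ⊆ s → MapsTo γ (Icc 0 1) W →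
      sp g γ 0 < δ → 2 * u (γ (1 / 2)) = u (γ 0) + u (γ 1) - lam * sp g γ 0 / 4) :
    ContMDiffAt 𝓘(ℝ, E) 𝓘(ℝ, ℝ) ∞ u x ∧ hess g u x = lam • g x := by
  obtain ⟨x1, x2, x3⟩ := ex_facts hg hH hx
  have := FiniteDimensional.complete ℝ E
  have hG := ((hg.smooth x).contDiffAt ((isOpen_dom x hg.isOpen).mem_nhds
    (pt_mem_dom hx))).continuousAt
  have hsrc := (chartAt E x).open_source.mem_nhds (mem_chart_source E x)
  have hc : ∀ᶠ p : E × E in 𝓝 (pt E x, 0), co g x p.1 p.2 p.2 < δ :=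
    (((hG.comp_of_eq continuousAt_fst rfl).clm_apply continuousAt_snd).clm_apply
      continuousAt_snd).eventually_lt continuousAt_const (by simpa using hδ)
  have hI : Icc (0 : ℝ) 1 ⊆ Icc (-1) 1 := Icc_subset_Icc_left (by norm_num)
  have hE := ev_geo hg hH hx (inter_mem hW (inter_mem hsrc hu))
  obtain ⟨c1, L, c2⟩ := core (u := rd E u x) (B := fun m => (lam / 2) • co g x m) x1 x2 x3 (by
    filter_upwards [(tendsto_symm_pt x).eventually hu,
      (chartAt E x).open_target.mem_nhds (pt_mem x)] with m h1 h2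
    exact h1.comp ((chartAt E x).continuousAt_symm h2)) (hG.const_smul (lam / 2)) (by
    filter_upwards [hE, hc] with p ⟨h1, h2⟩ h3 t ht
    have h4 := aff_of_mid (f := fun t => u (geo g U x p t) - lam / 2 * co g x p.1 p.2 p.2 * t ^ 2)
      (fun t ht => ((ContinuousAt.comp (h2 t (hI ht)).2.1.2.2
        (geo_contAt hg hH (h2 t (hI ht)).1)).sub (by fun_prop)).continuousWithinAt)
      (fun a ha b hb hab => by
        have m : ∀ t ∈ Icc (0 : ℝ) 1, (b - a) * t + a ∈ Icc (-1 : ℝ) 1 := fun t ht =>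
          ⟨by nlinarith [ha.1, ht.1], by nlinarith [hb.2, ht.2]⟩
        have e : sp g (fun t => geo g U x p ((b - a) * t + a)) 0
            = (b - a) ^ 2 * co g x p.1 p.2 p.2 := by
          rw [sp_affine, sp_geo hg hH (h2 _ (m 0 ⟨le_rfl, zero_le_one⟩)).1]
        have h0 := Vale.Agent.P219.RG.nonneg_of_pos ((met_on hg x).pos _ h1) p.2
        have := h _ _ (isOpen_Tm.preimage (by fun_prop)) (ord_preimage ordConnected_Tm _ _)
          ((isGeo_geo hg hH).comp_affine (b - a) a) (fun t ht => (h2 _ (m t ht)).1)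
          (fun t ht => (h2 _ (m t ht)).2.1.1) (by
            rw [e]
            refine lt_of_le_of_lt (mul_le_of_le_one_left h0 (pow_le_one₀ ?_ ?_)) h3 <;>
              linarith [ha.1, hb.2])
        rw [e, show (b - a) * (1 / 2) + a = (a + b) / 2 by ring, mul_zero, zero_add, mul_one,
          sub_add_cancel] at this
        linear_combination this) ht
    have h5 := (h2 1 ⟨by norm_num, le_rfl⟩).2.1.2.1
    simp only [rd, Function.comp_apply, ex, (h2 t (hI ht)).2.2, (chartAt E x).left_inv h5,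
      (chartAt E x).left_inv (h2 t (hI ht)).2.1.2.1, smul_apply, smul_eq_mul]
    rw [geo_zero hg hH] at h4
    linear_combination h4)
  refine ⟨contMDiffAt_iff_rd.2 c1, ?_⟩
  have c3 : ContDiffAt ℝ 2 (rd E u x) (pt E x) := c1.of_le Vale.Agent.P219.RG.two_le_infty
  have q : ∀ v, hess g u x v v = lam * g x v v := fun v => by
    have h1 := (hess_geo (u := u) (isGeo_ray hg hH) isOpen_Life (zero_mem_Life hg hx v)
      (by rwa [ray_zero hg hH])).2.2
    rw [dv_ray_zero hg hH hx, ray_zero hg hH] at h1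
    have h2 : Tendsto (fun t : ℝ => t • v) (𝓝 0) (𝓝 0) :=
      Continuous.tendsto' (by fun_prop) _ _ (zero_smul _ _)
    have h3 : u ∘ ray g U x v =ᶠ[𝓝 0] fun t => u x + t * L v + t ^ 2 * (lam / 2 * g x v v) := by
      filter_upwards [h2.eventually c2, h2.eventually
        (((Continuous.prodMk_right (pt E x)).tendsto 0).eventually hE),
        isOpen_Life.mem_nhds (zero_mem_Life hg hx v)] with t a1 a2 a3
      simp only [rd, Function.comp_apply, ex, symm_pt, co_pt, map_smul, smul_apply, smul_eq_mul,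
        (chartAt E x).left_inv (a2.2 1 ⟨by norm_num, le_rfl⟩).2.1.2.1] at a1
      rw [Function.comp_apply, ← expo_smul hg hH a3]
      exact a1.trans (by ring)
    have h4 : ∀ t : ℝ, HasDerivAt (fun t => u x + t * L v + t ^ 2 * (lam / 2 * g x v v))
        (L v + t * (lam * g x v v)) t := fun t =>
      ((((hasDerivAt_id t).mul_const _).const_add _).add
        ((hasDerivAt_pow 2 t).mul_const _)).congr_deriv (by simp; ring)
    exact (h1.congr_of_eventuallyEq (h3.deriv.symm)).unique (by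
      rw [funext fun t => (h4 t).deriv]
      simpa using ((hasDerivAt_id (0 : ℝ)).mul_const (lam * g x v v)).const_add (L v))
  ext v w
  have := q (v + w)
  simp only [map_add, add_apply, q v, q w, hess_symm hg hx c3 w v, hg.symm x hx w v] at this
  rw [smul_apply, smul_apply, smul_eq_mul]
  linarith

/-- short geodesics are minimising, uniformly near a point -/
theorem short (hr : HR E) (hg : Met g U) (hH : Hs U) (hx : x ∈ U) :
    ∃ W ∈ 𝓝 x, ∃ δ > 0, ∀ γ s, IsOpen s → s.OrdConnected → IsGeo g U γ s → Icc 0 1 ⊆ s →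
      γ 0 ∈ W → sp g γ 0 < δ →
      ∃ σ d, d ^ 2 = sp g γ 0 ∧ MinGeo g U σ d ∧ ∀ t ∈ Icc (0 : ℝ) 1, σ (d * t) = γ t := by
  obtain ⟨x1, x2, x3⟩ := ex_facts hg hH hx
  have := FiniteDimensional.complete ℝ E
  have hF : HasStrictFDerivAt (fun p : E × E => (p.1, ex g U x p))
      ((ContinuousLinearEquiv.refl ℝ E).skewProd (ContinuousLinearEquiv.refl ℝ E)
        (ContinuousLinearMap.id ℝ E) : E × E →L[ℝ] E × E) (pt E x, 0) :=
    (hasStrictFDerivAt_fst.prodMk (x1.hasStrictFDerivAt (by simp))).congr_fderiv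
      (ContinuousLinearMap.ext fun p => by simp [x3, add_comm])
  obtain ⟨η, hη, h1⟩ := Metric.eventually_nhds_iff.1 hF.eventually_left_inverse
  obtain ⟨c, hc, h2⟩ := (met_on hg x).lower_bound (pt_mem_dom hx)
  obtain ⟨r, hN⟩ := exists_nb hg hH hx
  have hr0 := half_pos hN.pos
  have hsrc := mem_chart_source E x
  refine ⟨_, inter_mem ((chartAt E x).open_source.mem_nhds hsrc) (inter_mem
    (((chartAt E x).continuousAt hsrc).eventually (h2.and (Metric.ball_mem_nhds _ hη)))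
    (hg.bl_mem_nhds hx hr0)), min (c * η ^ 2) ((r / 2) ^ 2), by positivity,
    fun γ s s1 s2 s3 s4 s5 s6 => ?_⟩
  have key : ∀ γ' s', IsOpen s' → s'.OrdConnected → IsGeo g U γ' s' → Icc 0 1 ⊆ s' → γ' 0 = γ 0 →
      sp g γ' 0 ≤ sp g γ 0 → ∃ p : E × E, dist p (pt E x, 0) < η ∧ p.1 = chartAt E x (γ 0) ∧
        sp g γ' 0 = co g x p.1 p.2 p.2 ∧ ∀ t ∈ Icc (0 : ℝ) 1, geo g U x p t = γ' t :=
    fun γ' s' t1 t2 t3 t4 t5 t6 => by
    have z := t4 ⟨le_rfl, zero_le_one⟩
    have S : Sol g U x _ γ' s' := ⟨t1, t2, z, t3, t5 ▸ s5.1, rfl⟩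
    have e : (stt (E := E) γ' x 0).1 = chartAt E x (γ 0) := congrArg (chartAt E x) t5
    have e2 := sp_chart (g := g) (t3.contAt t1 z) S.src (t3.eqn _ _ z S.src).1
    refine ⟨_, max_lt (e ▸ s5.2.1.2) ?_, e, e2, fun t ht => S.geo_eq hg hH (t4 ht)⟩
    have e3 := s5.2.1.1 (stt (E := E) γ' x 0).2
    rw [← e] at e3
    rw [dist_zero_right]
    exact lt_of_pow_lt_pow_left₀ 2 hη.le (lt_of_mul_lt_mul_left
      ((e3.trans (e2.ge.trans t6)).trans_lt (s6.trans_le (min_le_left _ _))) hc.le)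
  have z0 := s4 ⟨le_rfl, zero_le_one⟩
  have h3 := s3.ed_le hg hH s1 s2 z0 (s4 ⟨zero_le_one, le_rfl⟩) z0
  rw [zero_sub, abs_neg, abs_one, one_mul] at h3
  obtain ⟨σ, m1, m2, m3⟩ := hr M g U (γ 0) (γ 1) (r - r / 2) hg hH
    ((hN.cpt hg hH).shift hg hr0.le (half_lt_self hN.pos) (bl_subset_cbl s5.2.2))
    (h3.trans_lt ((ENNReal.ofReal_lt_ofReal_iff (by linarith)).2 (by
      rw [Real.sqrt_lt' (by linarith), sub_half]
      exact s6.trans_le (min_le_right _ _))))
  have h4 : dd g U (γ 0) (γ 1) ≤ √(sp g γ 0) :=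
    ENNReal.toReal_le_of_le_ofReal (Real.sqrt_nonneg _) h3
  generalize dd g U (γ 0) (γ 1) = d at m1 m3 h4
  obtain ⟨ε, hε, g1, g2⟩ := m1.geo
  have d0 := m1.nonneg
  have g3 : IsGeo g U σ (Ioo (-ε) (d + ε)) := ⟨g1, g2⟩
  have g4 : sp g (fun t => σ (d * t + 0)) 0 = d ^ 2 := by
    have := m1.unit 0 ⟨le_rfl, d0⟩
    rw [g3.spd_eq isOpen_Ioo ⟨by linarith, by linarith⟩, Real.sqrt_eq_one] at this
    rw [sp_affine, mul_zero, add_zero, this, mul_one]
  obtain ⟨p, p1, p2, p3, p4⟩ := key γ s s1 s2 s3 s4 rfl le_rfl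
  obtain ⟨q, q1, q2, q3, q4⟩ := key _ _ (isOpen_Ioo.preimage (by fun_prop))
    (ord_preimage ordConnected_Ioo _ _) (g3.comp_affine d 0)
    (fun t ht => ⟨by nlinarith [ht.1], by nlinarith [ht.2]⟩) (by simpa using m2) (by
      rw [g4]
      exact (pow_le_pow_left₀ d0 h4 2).trans (Real.sq_sqrt (g_nonneg hg (s3.mem 0 z0) _)).le)
  obtain rfl : p = q := by
    rw [← h1 p1, ← h1 q1, p2, q2, ex, ex, p4 1 ⟨zero_le_one, le_rfl⟩, q4 1 ⟨zero_le_one, le_rfl⟩]
    simp only [mul_one, add_zero, m3]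
  exact ⟨σ, d, by rw [← g4, p3, q3], m1, fun t ht => by rw [← p4 t ht, q4 t ht, add_zero]⟩

/-- **The rigidity lemma.** A continuous function with the midpoint identity along minimising
geodesics is smooth and its Hessian is a multiple of the metric. -/
theorem rig (hr : HR E) (hg : Met g U) (hH : Hs U) (hV : IsOpen V) (hVU : V ⊆ U)
    (hu : ContinuousOn u V) (h : ∀ σ L, MinGeo g U σ L → MapsTo σ (Icc 0 L) V →
      2 * u (σ (L / 2)) = u (σ 0) + u (σ L) - lam * L ^ 2 / 4) :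
    ContMDiffOn 𝓘(ℝ, E) 𝓘(ℝ, ℝ) ∞ u V ∧ ∀ x ∈ V, hess g u x = lam • g x := by
  have key : ∀ x ∈ V, ContMDiffAt 𝓘(ℝ, E) 𝓘(ℝ, ℝ) ∞ u x ∧ hess g u x = lam • g x := fun x hx => by
    obtain ⟨W, hW, δ, hδ, H⟩ := short hr hg hH (hVU hx)
    refine rig_loc hg hH (hVU hx) (mem_of_superset (hV.mem_nhds hx) fun y hy =>
      hu.continuousAt (hV.mem_nhds hy)) (inter_mem hW (hV.mem_nhds hx)) hδ
      fun γ s s1 s2 s3 s4 s5 s6 => ?_
    obtain ⟨σ, d, d1, d2, d3⟩ := H γ s s1 s2 s3 s4 (s5 ⟨le_rfl, zero_le_one⟩).1 s6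
    have := h σ d d2 fun τ hτ => by
      have m : τ / d ∈ Icc (0 : ℝ) 1 := ⟨div_nonneg hτ.1 d2.nonneg, div_le_one_of_le₀ hτ.2 d2.nonneg⟩
      have e : d * (τ / d) = τ := by
        rcases d2.nonneg.eq_or_lt with rfl | h0
        · rw [zero_mul, le_antisymm hτ.2 hτ.1]
        · field_simp
      exact e ▸ d3 _ m ▸ (s5 m).2
    rw [← d3 _ ⟨by norm_num, by norm_num⟩, ← d3 0 ⟨le_rfl, zero_le_one⟩,
      ← d3 1 ⟨zero_le_one, le_rfl⟩, ← d1, mul_zero, mul_one, mul_one_div, this]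
  exact ⟨fun x hx => (key x hx).1.contMDiffWithinAt, fun x hx => (key x hx).2⟩

end Vale.Agent.P216RG
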