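import Mathlib.Analysis.Calculus.InverseFunctionTheorem.ContDiff
import Mathlib.Analysis.Calculus.Deriv.Slope
import Mathlib.Analysis.Calculus.Deriv.Prod
import Mathlib.Analysis.Calculus.Deriv.Comp
import Mathlib.Analysis.Calculus.Deriv.Mul
import Mathlib.Analysis.Calculus.Deriv.Add
import Mathlib.Analysis.Calculus.ContDiff.Operations
import Mathlib.Topology.Instances.RealVectorSpace

/-!
# P216RG/Core: a continuous function which is quadratic along all short geodesics is smooth
-/

open scoped ContDiff Topology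
open Set Filter Metric

namespace Vale.Agent.P216RG

/-- a continuous function with the midpoint property is affine -/
theorem aff_of_mid {f : ℝ → ℝ} {a b : ℝ} (hf : ContinuousOn f (Icc a b))
    (h : ∀ x ∈ Icc a b, ∀ y ∈ Icc a b, x ≤ y → 2 * f ((x + y) / 2) = f x + f y) {t : ℝ}
    (ht : t ∈ Icc a b) : (b - a) * f t = (b - t) * f a + (t - a) * f b := by
  have key : ∀ k : ℝ → ℝ, ContinuousOn k (Icc a b) → k a = 0 → k b = 0 →
      (∀ x ∈ Icc a b, ∀ y ∈ Icc a b, x ≤ y → 2 * k ((x + y) / 2) = k x + k y) → k t ≤ 0 :=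
    fun k hk h1 h2 h3 => by
    obtain ⟨c, hc, hm⟩ := isCompact_Icc.exists_isMaxOn ⟨t, ht⟩ hk
    refine (hm ht).trans ?_
    rcases le_total (c - a) (b - c) with h4 | h4
    · have m : 2 * c - a ∈ Icc a b := ⟨by linarith [hc.1], by linarith⟩
      have := h3 a ⟨le_rfl, hc.1.trans hc.2⟩ _ m m.1
      rw [show (a + (2 * c - a)) / 2 = c by ring] at this
      linarith [show k (2 * c - a) ≤ k c from hm m]
    · have m : 2 * c - b ∈ Icc a b := ⟨by linarith, by linarith [hc.2]⟩
      have := h3 _ m b ⟨hc.1.trans hc.2, le_rfl⟩ m.2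
      rw [show (2 * c - b + b) / 2 = c by ring] at this
      linarith [show k (2 * c - b) ≤ k c from hm m]
  have h1 := key (fun t => (b - a) * f t - ((b - t) * f a + (t - a) * f b)) (by fun_prop)
    (by ring) (by ring) fun x hx y hy hxy => by linear_combination (b - a) * h x hx y hy hxy
  have h2 := key (fun t => (b - t) * f a + (t - a) * f b - (b - a) * f t) (by fun_prop)
    (by ring) (by ring) fun x hx y hy hxy => by linear_combination (a - b) * h x hx y hy hxy
  linarith

variable {E : Type*} [NormedAddCommGroup E] [NormedSpace ℝ E]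

theorem exists_hom {b : E → ℝ} (hb : ∀ᶠ v in 𝓝 0, ContinuousAt b v)
    (h : ∀ᶠ v in 𝓝 (0 : E), ∀ t ∈ Icc (0 : ℝ) 1, b (t • v) = t * b v) :
    ∃ f : E → ℝ, Continuous f ∧ (∀ c, 0 < c → ∀ v, f (c • v) = c * f v) ∧ b =ᶠ[𝓝 0] f := by
  obtain ⟨δ, hδ, H⟩ := Metric.eventually_nhds_iff_ball.1 (hb.and h)
  have k1 : ∀ (v : E) (s t : ℝ), 0 < s → s ≤ t → t * ‖v‖ < δ → b (s • v) / s = b (t • v) / t :=
    fun v s t hs hst ht => by
    have h0 := hs.trans_le hst
    have := (H (t • v) (by rwa [mem_ball_zero_iff, norm_smul, Real.norm_of_nonneg h0.le])).2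
      (s / t) ⟨by positivity, (div_le_one h0).2 hst⟩
    rw [smul_smul, div_mul_cancel₀ _ h0.ne'] at this
    rw [this]
    field_simp
  have k2 : ∀ (v : E) (s t : ℝ), 0 < s → 0 < t → s * ‖v‖ < δ → t * ‖v‖ < δ →
      b (s • v) / s = b (t • v) / t := fun v s t hs ht h1 h2 =>
    (le_total s t).elim (fun e => k1 v s t hs e h2) fun e => (k1 v t s ht e h1).symm
  have k3 : ∀ v : E, 0 < δ / (‖v‖ + 1) := fun v => by positivity
  have k4 : ∀ v : E, δ / (‖v‖ + 1) * ‖v‖ < δ := fun v => by
    rw [div_mul_eq_mul_div, div_lt_iff₀ (by positivity)]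
    linarith
  refine ⟨fun v => b ((δ / (‖v‖ + 1)) • v) / (δ / (‖v‖ + 1)),
    continuous_iff_continuousAt.2 fun v => ?_, fun c hc v => ?_, ?_⟩
  · have c1 : Continuous fun v : E => δ / (‖v‖ + 1) :=
      continuous_const.div (by fun_prop) fun v => by positivity
    exact ((H _ (by rw [mem_ball_zero_iff, norm_smul, Real.norm_of_nonneg (k3 v).le]; exact k4 v)
      ).1.comp (f := fun v : E => (δ / (‖v‖ + 1)) • v) (c1.smul continuous_id).continuousAt).div
      c1.continuousAt (k3 v).ne'
  · have h1 := k4 (c • v)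
    rw [norm_smul c v, Real.norm_of_nonneg hc.le, ← mul_assoc] at h1
    have h2 := k3 (c • v)
    rw [norm_smul c v, Real.norm_of_nonneg hc.le] at h2
    simp only [norm_smul c v, Real.norm_of_nonneg hc.le, smul_smul]
    rw [← k2 v _ _ (mul_pos h2 hc) (k3 v) h1 (k4 v)]
    field_simp
  · filter_upwards [ball_mem_nhds 0 hδ] with v hv
    rw [← k2 v 1 _ one_pos (k3 v) (by simpa using hv) (k4 v), one_smul, div_one]

theorem core [CompleteSpace E] {X : E × E → E} {u : E → ℝ} {B : E → E →L[ℝ] E →L[ℝ] ℝ} {x : E}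
    (hX : ContDiffAt ℝ ∞ X (x, 0)) (h0 : X (x, 0) = x)
    (hD : ∀ p, fderiv ℝ X (x, 0) p = p.1 + p.2) (hu : ∀ᶠ y in 𝓝 x, ContinuousAt u y)
    (hB : ContinuousAt B x) (h : ∀ᶠ p : E × E in 𝓝 (x, 0), ∀ t ∈ Icc (0 : ℝ) 1,
      u (X (p.1, t • p.2)) = (1 - t) * u p.1 + t * u (X p) - t * (1 - t) * B p.1 p.2 p.2) :
    ContDiffAt ℝ ∞ u x ∧
      ∃ L : E →L[ℝ] ℝ, ∀ᶠ v in 𝓝 0, u (X (x, v)) = u x + L v + B x v v := by
  have dX := (hX.differentiableAt (by simp)).hasFDerivAt
  have he : ContDiffAt ℝ ∞ (fun v => X (x, v)) 0 :=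
    hX.comp 0 (f := fun v => (x, v)) (contDiffAt_const.prodMk contDiffAt_id)
  have he' : HasFDerivAt (fun v => X (x, v))
      (ContinuousLinearEquiv.refl ℝ E : E →L[ℝ] E) 0 :=
    (dX.comp 0 (hasFDerivAt_prodMk_right x 0)).congr_fderiv (by ext v; simp [hD])
  have l1 := he.to_localInverse he' (by simp)
  have hs := he.hasStrictFDerivAt' he' (by simp)
  have l2 := hs.eventually_right_inverse
  have l3 := hs.localInverse_apply_image
  have l4 := hs.to_localInverse.hasFDerivAt
  change ContDiffAt ℝ ∞ (hs.localInverse _ _ _) _ at l1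
  generalize hs.localInverse _ _ _ = l at l1 l2 l3 l4
  simp only [h0] at l1 l2 l3 l4
  have t0 : Tendsto (fun v => X (x, v)) (𝓝 0) (𝓝 x) := he.continuousAt.tendsto.congr (fun _ => rfl)
    |>.mono_right (by rw [h0])
  obtain ⟨f, f1, f2, f3⟩ := exists_hom (b := fun v => u (X (x, v)) - u x - B x v v) (by
    filter_upwards [t0.eventually hu, (he.of_le (m := 1) (by simp)).eventually (by simp)]
      with v h1 h2
    exact ((h1.comp (f := fun v => X (x, v)) h2.continuousAt).sub continuousAt_const).sub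
      (by fun_prop)) (by
    filter_upwards [((Continuous.prodMk_right x).tendsto 0).eventually h] with v hv t ht
    simp only [hv t ht, map_smul, smul_apply, smul_eq_mul]
    ring)
  have f4 : ∀ᶠ y in 𝓝 x, u y = u x + f (l y) + B x (l y) (l y) := by
    filter_upwards [l2, (l3 ▸ l1.continuousAt.tendsto).eventually f3] with y h1 h2
    simp only [h1] at h2
    linarith
  have D : ∀ (c : ℝ → E) (a : E), c 0 = x → HasDerivAt c a 0 →
      Tendsto (fun t => t⁻¹ * (u (c t) - u x)) (𝓝[>] 0) (𝓝 (f a)) := fun c a c0 c1 => by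
    have d1 := (l4.comp_hasDerivAt_of_eq 0 c1 c0.symm).tendsto_slope_zero_right
    simp only [Function.comp_apply, c0, l3, zero_add, sub_zero] at d1
    have d2 : Tendsto (fun t : ℝ => t) (𝓝[>] 0) (𝓝 0) := nhdsWithin_le_nhds
    have d3 := ((f1.tendsto _).comp d1).add (d2.mul ((Continuous.tendsto
      (f := fun v => B x v v) (by fun_prop) _).comp d1))
    rw [zero_mul, add_zero] at d3
    refine d3.congr' ?_
    filter_upwards [d2.eventually ((c0 ▸ c1.continuousAt.tendsto).eventually f4),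
      self_mem_nhdsWithin] with t h1 h2
    have h3 : 0 < t := h2
    simp only [Function.comp_apply, f2 _ (inv_pos.2 h3), h1, map_smul,
      smul_apply, smul_eq_mul]
    field_simp
    ring
  have A : ∀ q w, 2 * f (q + (1 / 2 : ℝ) • w) = f q + f (q + w) := fun q w => by
    have c0 : HasDerivAt (fun t : ℝ => x + t • q) q 0 := by
      simpa using ((hasDerivAt_id (0 : ℝ)).smul_const q).const_add x
    have c1 : ∀ z : E, HasDerivAt (fun t : ℝ => (x + t • q, t • z)) (q, z) 0 := fun z =>
      c0.prodMk (by simpa using (hasDerivAt_id (0 : ℝ)).smul_const z)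
    have c2 := fun z => D (fun t => X (x + t • q, t • z)) (q + z) (by simpa using h0)
      ((dX.comp_hasDerivAt_of_eq 0 (c1 z) (by simp)).congr_deriv (hD _))
    have d2 : Tendsto (fun t : ℝ => t) (𝓝[>] 0) (𝓝 0) := nhdsWithin_le_nhds
    have c3 : Tendsto (fun t : ℝ => (x + t • q, t • w)) (𝓝[>] 0) (𝓝 (x, 0)) :=
      ((c1 w).continuousAt.tendsto.comp d2).mono_right (by simp)
    have c4 : Tendsto (fun t : ℝ => B (x + t • q) w w) (𝓝[>] 0) (𝓝 (B x w w)) :=
      ((Continuous.tendsto (f := fun C : E →L[ℝ] E →L[ℝ] ℝ => C w w) (by fun_prop) _).comp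
        hB.tendsto).comp ((continuous_fst.tendsto _).comp c3)
    have c5 := (((D _ q (by simp) c0).add (c2 w)).sub ((d2.mul c4).div_const 2))
    rw [zero_mul, zero_div, sub_zero] at c5
    refine tendsto_nhds_unique_of_eventuallyEq ((c2 _).const_mul 2) c5 ?_
    filter_upwards [c3.eventually h, self_mem_nhdsWithin] with t h1 h2
    have h3 : 0 < t := h2
    have h4 := h1 (1 / 2) ⟨by norm_num, by norm_num⟩
    simp only [map_smul, smul_apply, smul_eq_mul] at h4
    rw [smul_comm t, h4]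
    field_simp
    ring
  have f0 : f 0 = 0 := by
    have := f2 2 two_pos 0
    rw [smul_zero] at this
    linarith
  let F : E →+ ℝ := ⟨⟨f, f0⟩, fun a b => by
    have := A a (b - a)
    rw [← f2 2 two_pos, add_sub_cancel] at this
    rw [← this]
    exact congrArg f (by module)⟩
  refine ⟨ContDiffAt.congr_of_eventuallyEq (f := fun y => u x + F.toRealLinearMap f1 (l y)
    + B x (l y) (l y)) ((contDiffAt_const.add ((F.toRealLinearMap f1).contDiff.contDiffAt.comp x
      l1)).add ((contDiffAt_const.clm_apply l1).clm_apply l1)) f4, F.toRealLinearMap f1,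
    f3.mono fun v hv => ?_⟩
  change _ = u x + f v + B x v v
  linarith

end Vale.Agent.P216RG
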